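import Vale.Agent.P131.Finite
import Vale.Agent.P131.Compact
import Vale.Agent.P131.Telescope
import Vale.Agent.P131.Window
import Vale.Agent.P131.Site
import Vale.Agent.P131.Assemble

/-!
P131: on every separable infinite-dimensional complex Hilbert space there is a nonscalar bounded
operator without a nontrivial closed hyperinvariant subspace.
-/

namespace Vale.Agent.Results.P131.NoHyperinvariant

universe u

theorem result (H : Type u) [NormedAddCommGroup H] [InnerProductSpace ℂ H] [CompleteSpace H]
    [TopologicalSpace.SeparableSpace H] (hH : ¬ FiniteDimensional ℂ H) :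
    ∃ T : H →L[ℂ] H, (∀ c : ℂ, T ≠ c • (1 : H →L[ℂ] H)) ∧
      ∀ W : Submodule ℂ H, IsClosed (W : Set H) →
        (∀ A : H →L[ℂ] H, A * T = T * A → ∀ v ∈ W, A v ∈ W) → W = ⊥ ∨ W = ⊤ :=
  Vale.Agent.P131.transitive_commutant_of_core
    (Vale.Agent.P131.coreSpec_of
      (Vale.Agent.P131.compactSpec Vale.Agent.P131.finiteSpec)
      Vale.Agent.P131.telescopeSpec Vale.Agent.P131.windowSpec Vale.Agent.P131.siteSpec) hH

end Vale.Agent.Results.P131.NoHyperinvariant
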